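import Vale.Agent.P286EG2.Bar

/-!
# Natural flat resolutions: the total complex of the bar construction
-/

set_option linter.all false

namespace Vale.Agent.P286EG2

open Vale.Agent.P286 Vale.Agent.P286EG TensorProduct

noncomputable section

variable {A : Type} [CommRing A]

/-- The indices. -/
abbrev Ix (m : ℤ) : Type := {σ : ℕ × ℤ // σ.2 = m + σ.1}

/-- The terms of the resolution. -/
abbrev QX (K : MCx A) (m : ℤ) : Type := DirectSum (Ix m) fun σ => (U σ.1.1 K).X σ.1.2

/-- The inclusion of a summand. -/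
def inj (K : MCx A) (m : ℤ) (n : ℕ) (p : ℤ) (h : p = m + n) : (U n K).X p →ₗ[A] QX K m :=
  DirectSum.lof A (Ix m) (fun σ => (U σ.1.1 K).X σ.1.2) ⟨(n, p), h⟩

/-- The map given on the summands. -/
def des {K : MCx A} {m : ℤ} {N : Type} [AddCommGroup N] [Module A N]
    (f : ∀ (n : ℕ) (p : ℤ), p = m + n → (U n K).X p →ₗ[A] N) : QX K m →ₗ[A] N :=
  DirectSum.toModule A (Ix m) N fun σ => f σ.1.1 σ.1.2 σ.2

theorem des_inj {K : MCx A} {m : ℤ} {N : Type} [AddCommGroup N] [Module A N]
    (f : ∀ (n : ℕ) (p : ℤ), p = m + n → (U n K).X p →ₗ[A] N) (n : ℕ) (p : ℤ) (h : p = m + n)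
    (x : (U n K).X p) : des f (inj K m n p h x) = f n p h x :=
  DirectSum.toModule_lof A (ι := Ix m) (M := fun σ => (U σ.1.1 K).X σ.1.2) ⟨(n, p), h⟩ x

/-- The additive map given on the summands. -/
def desA {K : MCx A} {m : ℤ} {N : Type} [AddCommGroup N]
    (f : ∀ (n : ℕ) (p : ℤ), p = m + n → (U n K).X p →+ N) : QX K m →+ N :=
  DirectSum.toAddMonoid fun σ : Ix m => f σ.1.1 σ.1.2 σ.2

theorem desA_inj {K : MCx A} {m : ℤ} {N : Type} [AddCommGroup N]
    (f : ∀ (n : ℕ) (p : ℤ), p = m + n → (U n K).X p →+ N) (n : ℕ) (p : ℤ) (h : p = m + n)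
    (x : (U n K).X p) : desA f (inj K m n p h x) = f n p h x :=
  DirectSum.toAddMonoid_of (β := fun σ : Ix m => (U σ.1.1 K).X σ.1.2) _ ⟨(n, p), h⟩ x

theorem qind {K : MCx A} {m : ℤ} (P : QX K m → Prop) (h0 : P 0)
    (h1 : ∀ n p h x, P (inj K m n p h x)) (h2 : ∀ x y, P x → P y → P (x + y)) (z : QX K m) :
    P z := by
  induction z using DirectSum.induction_on with
  | zero => exact h0
  | of σ x => exact h1 σ.1.1 σ.1.2 σ.2 x
  | add x y hx hy => exact h2 x y hx hy

/-- The bar part of the differential. -/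
def Bp (K : MCx A) {i j : ℤ} (hij : i + 1 = j) :
    ∀ (n : ℕ) (p : ℤ), p = i + n → (U n K).X p →ₗ[A] QX K j
  | 0, _, _ => 0
  | n + 1, p, h => (inj K j n p (by push_cast at h; omega)).comp (bn K p n)

/-- The differential. -/
def D (K : MCx A) {i j : ℤ} (hij : i + 1 = j) : QX K i →ₗ[A] QX K j :=
  des fun n p h => ((-1 : ℤ) ^ n) • (inj K j n (p + 1) (by omega)).comp ((U n K).d p (p + 1)) +
    Bp K hij n p h

theorem D_zero (K : MCx A) {i j : ℤ} (hij : i + 1 = j) (p : ℤ) (h : p = i + (0 : ℕ))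
    (x : (U 0 K).X p) : D K hij (inj K i 0 p h x) =
      inj K j 0 (p + 1) (by omega) ((U 0 K).d p (p + 1) x) := by
  rw [D, des_inj]
  simp [Bp]

theorem D_succ (K : MCx A) {i j : ℤ} (hij : i + 1 = j) (n : ℕ) (p : ℤ) (h : p = i + (n + 1 : ℕ))
    (x : (U (n + 1) K).X p) : D K hij (inj K i (n + 1) p h x) =
      ((-1 : ℤ) ^ (n + 1)) • inj K j (n + 1) (p + 1) (by omega) ((U (n + 1) K).d p (p + 1) x) +
      inj K j n p (by push_cast at h; omega) (bn K p n x) := by
  rw [D, des_inj]
  rfl

theorem DD (K : MCx A) {i j k : ℤ} (hij : i + 1 = j) (hjk : j + 1 = k) (z : QX K i) :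
    D K hjk (D K hij z) = 0 := by
  refine qind (fun z => D K hjk (D K hij z) = 0) (by simp) ?_ ?_ z
  · intro n p h x
    rcases n with _ | n
    · rw [D_zero, D_zero, MCx.dd_apply, map_zero]
    · rw [D_succ, map_add, map_zsmul, D_succ, MCx.dd_apply, map_zero, smul_zero, zero_add, bd]
      rcases n with _ | n
      · rw [D_zero]
        simp only [zero_add, pow_one, neg_smul, one_smul]
        exact neg_add_cancel _
      · rw [D_succ, bb n x, map_zero, add_zero, pow_succ (-1 : ℤ) (n + 1), mul_neg_one,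
          neg_smul]
        exact neg_add_cancel _
  · intro x y hx hy
    rw [map_add, map_add, hx, hy, add_zero]

/-- The resolution. -/
def Q (K : MCx A) : MCx A where
  X m := QX K m
  d i j := if h : i + 1 = j then D K h else 0
  dd i j k := by
    by_cases h : i + 1 = j
    · by_cases h' : j + 1 = k
      · rw [dif_pos h, dif_pos h']
        exact LinearMap.ext (DD K h h')
      · rw [dif_neg h', LinearMap.zero_comp]
    · rw [dif_neg h, LinearMap.comp_zero]

theorem Q_d (K : MCx A) {i j : ℤ} (h : i + 1 = j) : (Q K).d i j = D K h := dif_pos h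

/-- Transport of the degree. -/
def cs (K : MCx A) {p q : ℤ} (h : p = q) : K.X p →ₗ[A] K.X q := h ▸ LinearMap.id

theorem cs_rfl (K : MCx A) {p : ℤ} (h : p = p) (x : K.X p) : cs K h x = x := rfl

/-- The augmentation on the summands. -/
def Ep (K : MCx A) (m : ℤ) : ∀ (n : ℕ) (p : ℤ), p = m + n → (U n K).X p →ₗ[A] K.X m
  | 0, p, h => (cs K (by simpa using h)).comp (b0 K p)
  | _ + 1, _, _ => 0

/-- The augmentation. -/
def E (K : MCx A) (m : ℤ) : QX K m →ₗ[A] K.X m := des (Ep K m)

theorem E_zero (K : MCx A) (m : ℤ) (h : m = m + (0 : ℕ)) (x : (U 0 K).X m) :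
    E K m (inj K m 0 m h x) = b0 K m x := by
  rw [E, des_inj]
  rfl

theorem E_succ (K : MCx A) (m : ℤ) (n : ℕ) (p : ℤ) (h : p = m + (n + 1 : ℕ))
    (x : (U (n + 1) K).X p) : E K m (inj K m (n + 1) p h x) = 0 := by
  rw [E, des_inj]
  rfl

theorem E_D (K : MCx A) {i j : ℤ} (hij : i + 1 = j) (z : QX K i) :
    E K j (D K hij z) = K.d i j (E K i z) := by
  subst hij
  refine qind (fun z => E K (i + 1) (D K rfl z) = K.d i (i + 1) (E K i z)) (by simp) ?_ ?_ z
  · intro n p h x
    rcases n with _ | n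
    · obtain rfl : p = i := by simpa using h
      rw [D_zero, E_zero, E_zero]
      exact bd0 x
    · rw [D_succ, map_add, map_zsmul, E_succ, E_succ, smul_zero, zero_add, map_zero]
      rcases n with _ | n
      · obtain rfl : p = i + 1 := by simpa using h
        rw [E_zero]
        exact bb0 x
      · exact E_succ K _ n p _ _
  · intro x y hx hy
    rw [map_add, map_add, map_add, map_add, hx, hy]

/-- The section of the augmentation. -/
def sg (K : MCx A) (m : ℤ) : K.X m →+ QX K m :=
  (inj K m 0 m (by simp)).toAddMonoidHom.comp (s0 K m)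

theorem sg_eq (K : MCx A) (m : ℤ) (y : K.X m) :
    sg K m y = inj K m 0 m (by simp) (t0 1 y) := rfl

theorem E_sg (K : MCx A) (m : ℤ) (y : K.X m) : E K m (sg K m y) = y := by
  rw [sg_eq, E_zero]
  exact (b0_t 1 y).trans (one_smul _ _)

theorem D_sg (K : MCx A) {i j : ℤ} (hij : i + 1 = j) (y : K.X i) :
    D K hij (sg K i y) = sg K j (K.d i j y) := by
  subst hij
  rw [sg_eq, D_zero]
  rfl

/-- The homotopy. -/
def S (K : MCx A) {i j : ℤ} (hij : i + 1 = j) : QX K j →+ QX K i :=
  desA fun n p h => (inj K i (n + 1) p (by push_cast; omega)).toAddMonoidHom.comp (sn K p n)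

theorem S_inj (K : MCx A) {i j : ℤ} (hij : i + 1 = j) (n : ℕ) (p : ℤ) (h : p = j + n)
    (x : (U n K).X p) : S K hij (inj K j n p h x) =
      inj K i (n + 1) p (by push_cast; omega) (tn 1 x) := by
  rw [S, desA_inj]
  rfl

theorem htpy (K : MCx A) {i j k : ℤ} (hij : i + 1 = j) (hjk : j + 1 = k) (z : QX K j) :
    D K hij (S K hij z) + S K hjk (D K hjk z) = z - sg K j (E K j z) := by
  refine qind (fun z => D K hij (S K hij z) + S K hjk (D K hjk z) = z - sg K j (E K j z))
    (by simp) ?_ ?_ z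
  · intro n p h x
    rw [S_inj, D_succ, d_tn]
    rcases n with _ | n
    · obtain rfl : p = j := by simpa using h
      rw [b1_t, one_smul, map_sub, D_zero, S_inj, E_zero, sg_eq]
      simp only [zero_add, pow_one, neg_smul, one_smul]
      abel
    · rw [bn_t, one_smul, map_sub, D_succ, map_add, map_zsmul, S_inj, S_inj, E_succ, map_zero, sub_zero,
        pow_succ (-1 : ℤ) (n + 1), mul_neg_one, neg_smul]
      abel
  · intro x y hx hy
    rw [map_add, map_add, map_add, map_add, map_add, map_add, add_add_add_comm, hx, hy]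
    abel

/-- The augmentation. -/
def e (K : MCx A) : MHom (Q K) K where
  f := E K
  comm i j h x := by
    rw [Q_d K h]
    exact E_D K h x

theorem e_qis (K : MCx A) : (e K).Qis := by
  intro i j k hij hjk
  rw [Q_d K hij, Q_d K hjk]
  refine ⟨fun x hx hy => ?_, fun y hy => ?_⟩
  · obtain ⟨y, hy⟩ := hy
    have h := htpy K hij hjk x
    have hx' : D K hjk x = 0 := hx
    have hy' : K.d i j y = E K j x := hy
    rw [hx', map_zero, add_zero, ← hy', ← D_sg K hij] at h
    refine ⟨S K hij x + sg K i y, ?_⟩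
    change D K hij (S K hij x + sg K i y) = x
    rw [map_add, h]
    exact sub_add_cancel (G := QX K j) _ _
  · refine ⟨sg K j y, ?_, 0, ?_⟩
    · change D K hjk (sg K j y) = 0
      rw [D_sg, hy, map_zero]
    · change K.d i j 0 = y - E K j (sg K j y)
      rw [E_sg, map_zero, sub_self]

/-- The map of the resolutions. -/
def M {K L : MCx A} (u : MHom K L) (m : ℤ) : QX K m →ₗ[A] QX L m :=
  des fun n p h => (inj L m n p h).comp (un u p n)

theorem M_inj {K L : MCx A} (u : MHom K L) (m : ℤ) (n : ℕ) (p : ℤ) (h : p = m + n)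
    (x : (U n K).X p) : M u m (inj K m n p h x) = inj L m n p h (un u p n x) := by
  rw [M, des_inj]
  rfl

theorem M_D {K L : MCx A} (u : MHom K L) {i j : ℤ} (hij : i + 1 = j) (z : QX K i) :
    M u j (D K hij z) = D L hij (M u i z) := by
  refine qind (fun z => M u j (D K hij z) = D L hij (M u i z)) (by simp) ?_ ?_ z
  · intro n p h x
    rcases n with _ | n
    · rw [M_inj, D_zero, D_zero, M_inj]
      exact congrArg _ (un_d u rfl 0 x)
    · rw [M_inj, D_succ, D_succ, map_add, map_zsmul, M_inj, M_inj, un_b u n x, un_d u rfl]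
  · intro x y hx hy
    rw [map_add, map_add, map_add, map_add, hx, hy]

theorem E_M {K L : MCx A} (u : MHom K L) (m : ℤ) (z : QX K m) :
    E L m (M u m z) = u.f m (E K m z) := by
  refine qind (fun z => E L m (M u m z) = u.f m (E K m z)) (by simp) ?_ ?_ z
  · intro n p h x
    rcases n with _ | n
    · obtain rfl : p = m := by simpa using h
      rw [M_inj, E_zero, E_zero]
      exact un_b0 u x
    · rw [M_inj, E_succ, E_succ, map_zero]
  · intro x y hx hy
    rw [map_add, map_add, map_add, map_add, hx, hy]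

theorem res : RES := by
  intro A _ _
  refine ⟨Q, e, fun K L u => ⟨M u, fun i j h x => ?_⟩, fun K i => ?_, fun K i j h => dif_neg h,
    e_qis, fun K L u i x => E_M u i x⟩
  · rw [Q_d K h, Q_d L h]
    exact M_D u h x
  · exact Module.Flat.directSum_iff.2 fun σ => flatU K σ.1.1 σ.1.2

end

end Vale.Agent.P286EG2
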