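import Vale.Agent.P286EG.IF

/-!
# Natural flat resolutions: the bar construction
-/

set_option linter.all false

namespace Vale.Agent.P286EG2

open Vale.Agent.P286 Vale.Agent.P286EG TensorProduct

noncomputable section

variable {A : Type} [CommRing A]

/-- Base change from the integers. -/
def bz {M N : Type} [AddCommGroup M] [Module A M] [AddCommGroup N] [Module A N] (u : M →ₗ[A] N) :
    A ⊗[ℤ] M →ₗ[A] A ⊗[ℤ] N := LinearMap.baseChange A u.toAddMonoidHom.toIntLinearMap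

theorem bz_tmul {M N : Type} [AddCommGroup M] [Module A M] [AddCommGroup N] [Module A N]
    (u : M →ₗ[A] N) (a : A) (x : M) : bz u (a ⊗ₜ x) = a ⊗ₜ u x := rfl

/-- The evaluation. -/
def ev (M : Type) [AddCommGroup M] [Module A M] : A ⊗[ℤ] M →ₗ[A] M :=
  LinearMap.liftBaseChange A (LinearMap.id : M →ₗ[ℤ] M)

theorem ev_tmul {M : Type} [AddCommGroup M] [Module A M] (a : A) (x : M) :
    ev M (a ⊗ₜ x) = a • x := LinearMap.liftBaseChange_tmul _ _ _ _

theorem tind {M N : Type} [AddCommGroup M] [AddCommGroup N] (f g : A ⊗[ℤ] M →+ N)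
    (h : ∀ a x, f (a ⊗ₜ x) = g (a ⊗ₜ x)) (z : A ⊗[ℤ] M) : f z = g z := by
  induction z using TensorProduct.induction_on with
  | zero => rw [map_zero, map_zero]
  | tmul a x => exact h a x
  | add x y hx hy => rw [map_add, map_add, hx, hy]

theorem lind {M N : Type} [AddCommGroup M] [AddCommGroup N] [Module A N]
    (f g : A ⊗[ℤ] M →ₗ[A] N) (h : ∀ a x, f (a ⊗ₜ x) = g (a ⊗ₜ x)) (z : A ⊗[ℤ] M) : f z = g z :=
  tind f.toAddMonoidHom g.toAddMonoidHom h z

/-- The complex `A ⊗ K`. -/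
def G (K : MCx A) : MCx A where
  X i := A ⊗[ℤ] K.X i
  d i j := bz (K.d i j)
  dd i j k := by
    apply LinearMap.ext
    refine lind _ _ fun a x => ?_
    change a ⊗ₜ[ℤ] K.d j k (K.d i j x) = 0
    rw [K.dd_apply, tmul_zero]

/-- The iterates. -/
def T : ℕ → MCx A → MCx A
  | 0, K => K
  | n + 1, K => G (T n K)

/-- The element `a ⊗ x`. -/
def tm {K : MCx A} {i : ℤ} (a : A) (x : K.X i) : (G K).X i := a ⊗ₜ[ℤ] x

theorem gind {K : MCx A} {i : ℤ} {N : Type} [AddCommGroup N] [Module A N]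
    (f g : (G K).X i →ₗ[A] N) (h : ∀ a x, f (tm a x) = g (tm a x)) (z : (G K).X i) : f z = g z :=
  lind f g h z

theorem G_d {K : MCx A} (i j : ℤ) (a : A) (x : K.X i) :
    (G K).d i j (tm a x) = tm a (K.d i j x) := rfl

theorem tm_zero {K : MCx A} {i : ℤ} (a : A) : tm a (0 : K.X i) = 0 := tmul_zero _ _

theorem smul_tm {K : MCx A} {i : ℤ} (a : A) (x : K.X i) : a • tm 1 x = tm a x := by
  change a • ((1 : A) ⊗ₜ[ℤ] x) = a ⊗ₜ[ℤ] x
  rw [smul_tmul', smul_eq_mul, mul_one]

/-- The evaluation. -/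
def eg (K : MCx A) (i : ℤ) : (G K).X i →ₗ[A] K.X i := ev (K.X i)

theorem eg_tm {K : MCx A} {i : ℤ} (a : A) (x : K.X i) : eg K i (tm a x) = a • x := ev_tmul a x

/-- The functor on maps. -/
def gm {K L : MCx A} {i : ℤ} (u : K.X i →ₗ[A] L.X i) : (G K).X i →ₗ[A] (G L).X i := bz u

theorem gm_tm {K L : MCx A} {i : ℤ} (u : K.X i →ₗ[A] L.X i) (a : A) (x : K.X i) :
    gm u (tm a x) = tm a (u x) := rfl

/-- The bar differential. -/
def b (K : MCx A) (i : ℤ) : ∀ n : ℕ, (G (T n K)).X i →ₗ[A] (T n K).X i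
  | 0 => eg K i
  | n + 1 => eg (G (T n K)) i - gm (K := G (T n K)) (L := T n K) (b K i n)

/-- The functors on morphisms. -/
def tu {K L : MCx A} (u : MHom K L) (i : ℤ) : ∀ n : ℕ, (T n K).X i →ₗ[A] (T n L).X i
  | 0 => u.f i
  | n + 1 => gm (K := T n K) (L := T n L) (tu u i n)

/-- The levels. -/
def U (n : ℕ) (K : MCx A) : MCx A := G (T n K)

/-- The augmentation. -/
def b0 (K : MCx A) (i : ℤ) : (U 0 K).X i →ₗ[A] K.X i := b K i 0

/-- The bar differential. -/
def bn (K : MCx A) (i : ℤ) (n : ℕ) : (U (n + 1) K).X i →ₗ[A] (U n K).X i := b K i (n + 1)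

/-- The element `a ⊗ x`. -/
def t0 {K : MCx A} {i : ℤ} (a : A) (x : K.X i) : (U 0 K).X i := tm a x

/-- The element `a ⊗ x`. -/
def tn {K : MCx A} {i : ℤ} {n : ℕ} (a : A) (x : (U n K).X i) : (U (n + 1) K).X i :=
  tm (K := U n K) a x

/-- The maps of the levels. -/
def un {K L : MCx A} (u : MHom K L) (i : ℤ) (n : ℕ) : (U n K).X i →ₗ[A] (U n L).X i :=
  tu u i (n + 1)

section

variable {K L : MCx A} {i j : ℤ} {n : ℕ} {N : Type} [AddCommGroup N] [Module A N]

theorem ind0 (f g : (U 0 K).X i →ₗ[A] N) (h : ∀ a x, f (t0 a x) = g (t0 a x)) (z : (U 0 K).X i) :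
    f z = g z := gind (K := K) f g h z

theorem indn (f g : (U (n + 1) K).X i →ₗ[A] N) (h : ∀ a x, f (tn a x) = g (tn a x))
    (z : (U (n + 1) K).X i) : f z = g z := gind (K := U n K) f g h z

theorem b0_t (a : A) (x : K.X i) : b0 K i (t0 a x) = a • x := eg_tm a x

theorem b1_t (a : A) (x : (U 0 K).X i) : bn K i 0 (tn a x) = a • x - t0 a (b0 K i x) :=
  congrArg (· - t0 a (b0 K i x)) (eg_tm (K := U 0 K) a x)

theorem bn_t (a : A) (x : (U (n + 1) K).X i) :
    bn K i (n + 1) (tn a x) = a • x - tn a (bn K i n x) :=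
  congrArg (· - tn a (bn K i n x)) (eg_tm (K := U (n + 1) K) a x)

theorem d_t0 (a : A) (x : K.X i) : (U 0 K).d i j (t0 a x) = t0 a (K.d i j x) := rfl

theorem d_tn (a : A) (x : (U n K).X i) : (U (n + 1) K).d i j (tn a x) = tn a ((U n K).d i j x) :=
  rfl

theorem t0_zero (a : A) : t0 a (0 : K.X i) = 0 := tm_zero a

theorem tn_zero (a : A) : tn a (0 : (U n K).X i) = 0 := tm_zero (K := U n K) a

theorem un_t0 (u : MHom K L) (a : A) (x : K.X i) : un u i 0 (t0 a x) = t0 a (u.f i x) := rfl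

theorem un_tn (u : MHom K L) (a : A) (x : (U n K).X i) :
    un u i (n + 1) (tn a x) = tn a (un u i n x) := rfl

theorem bb0 (z : (U (0 + 1) K).X i) : b0 K i (bn K i 0 z) = 0 := by
  refine indn ((b0 K i).comp (bn K i 0)) 0 (fun a x => ?_) z
  rw [LinearMap.comp_apply, b1_t, map_sub, map_smul, b0_t, sub_self, LinearMap.zero_apply]

theorem bb (n : ℕ) : ∀ z : (U (n + 1 + 1) K).X i, bn K i n (bn K i (n + 1) z) = 0 := by
  induction n with
  | zero =>
    refine indn ((bn K i 0).comp (bn K i (0 + 1))) 0 fun a x => ?_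
    rw [LinearMap.comp_apply, bn_t, map_sub, map_smul, b1_t, bb0, t0_zero, sub_zero,
      sub_self, LinearMap.zero_apply]
  | succ n ih =>
    refine indn ((bn K i (n + 1)).comp (bn K i (n + 1 + 1))) 0 fun a x => ?_
    rw [LinearMap.comp_apply, bn_t, map_sub, map_smul, bn_t, ih, tn_zero, sub_zero, sub_self,
      LinearMap.zero_apply]

theorem bd0 (z : (U 0 K).X i) : b0 K j ((U 0 K).d i j z) = K.d i j (b0 K i z) := by
  refine ind0 ((b0 K j).comp ((U 0 K).d i j)) ((K.d i j).comp (b0 K i)) (fun a x => ?_) z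
  rw [LinearMap.comp_apply, LinearMap.comp_apply, d_t0, b0_t, b0_t, map_smul]

theorem bd (n : ℕ) : ∀ z : (U (n + 1) K).X i,
    bn K j n ((U (n + 1) K).d i j z) = (U n K).d i j (bn K i n z) := by
  induction n with
  | zero =>
    refine indn ((bn K j 0).comp ((U (0 + 1) K).d i j)) (((U 0 K).d i j).comp (bn K i 0))
      fun a x => ?_
    rw [LinearMap.comp_apply, LinearMap.comp_apply, d_tn, b1_t, b1_t, map_sub, map_smul, d_t0, bd0]
  | succ n ih =>
    refine indn ((bn K j (n + 1)).comp ((U (n + 1 + 1) K).d i j))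
      (((U (n + 1) K).d i j).comp (bn K i (n + 1))) fun a x => ?_
    rw [LinearMap.comp_apply, LinearMap.comp_apply, d_tn, bn_t, bn_t, map_sub, map_smul, d_tn, ih]

theorem un_d (u : MHom K L) (h : i + 1 = j) (n : ℕ) : ∀ z : (U n K).X i,
    un u j n ((U n K).d i j z) = (U n L).d i j (un u i n z) := by
  induction n with
  | zero =>
    refine ind0 ((un u j 0).comp ((U 0 K).d i j)) (((U 0 L).d i j).comp (un u i 0)) fun a x => ?_
    rw [LinearMap.comp_apply, LinearMap.comp_apply, d_t0, un_t0, un_t0, d_t0, u.comm i j h]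
  | succ n ih =>
    refine indn ((un u j (n + 1)).comp ((U (n + 1) K).d i j))
      (((U (n + 1) L).d i j).comp (un u i (n + 1))) fun a x => ?_
    rw [LinearMap.comp_apply, LinearMap.comp_apply, d_tn, un_tn, un_tn, d_tn, ih]

theorem un_b0 (u : MHom K L) (z : (U 0 K).X i) : b0 L i (un u i 0 z) = u.f i (b0 K i z) := by
  refine ind0 ((b0 L i).comp (un u i 0)) ((u.f i).comp (b0 K i)) (fun a x => ?_) z
  rw [LinearMap.comp_apply, LinearMap.comp_apply, un_t0, b0_t, b0_t, map_smul]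

theorem un_sub0 (u : MHom K L) (a : A) (x : (U 0 K).X i) (y : K.X i) :
    un u i 0 (a • x - t0 a y) = a • un u i 0 x - t0 a (u.f i y) := by
  rw [map_sub, map_smul, un_t0]

theorem un_b (u : MHom K L) (n : ℕ) : ∀ z : (U (n + 1) K).X i,
    bn L i n (un u i (n + 1) z) = un u i n (bn K i n z) := by
  induction n with
  | zero =>
    refine indn ((bn L i 0).comp (un u i (0 + 1))) ((un u i 0).comp (bn K i 0)) fun a x => ?_
    rw [LinearMap.comp_apply, LinearMap.comp_apply, un_tn, b1_t, b1_t, un_sub0, un_b0]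
  | succ n ih =>
    refine indn ((bn L i (n + 1)).comp (un u i (n + 1 + 1)))
      ((un u i (n + 1)).comp (bn K i (n + 1))) fun a x => ?_
    rw [LinearMap.comp_apply, LinearMap.comp_apply, un_tn, bn_t, bn_t, map_sub, map_smul, un_tn, ih]

end

/-- The map `x ↦ 1 ⊗ x`. -/
def s0 (K : MCx A) (i : ℤ) : K.X i →+ (U 0 K).X i :=
  (TensorProduct.mk ℤ A (K.X i) 1).toAddMonoidHom

/-- The map `x ↦ 1 ⊗ x`. -/
def sn (K : MCx A) (i : ℤ) (n : ℕ) : (U n K).X i →+ (U (n + 1) K).X i :=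
  (TensorProduct.mk ℤ A ((U n K).X i) 1).toAddMonoidHom

theorem flatZ [Algebra ℂ A] (N : Type) [AddCommGroup N] [Module A N] : Module.Flat ℤ N := by
  letI : Module ℂ N := Module.compHom N (algebraMap ℂ A)
  haveI : Module.IsTorsionFree ℤ N := Module.IsTorsionFree.trans_faithfulSMul ℤ ℂ N
  infer_instance

theorem flatU [Algebra ℂ A] (K : MCx A) (n : ℕ) (i : ℤ) : Module.Flat A ((U n K).X i) := by
  haveI := flatZ (A := A) ((T n K).X i)
  exact Module.Flat.baseChange ℤ A ((T n K).X i)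

end

end Vale.Agent.P286EG2
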